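import Mathlib

/-!
# Definitions for the combined statement on the `ℓ¹`-Bass conjecture
-/

namespace Vale.Agent.P184.Un

universe u v

variable {G : Type*} [Group G]

/-- Matrices of functions on `G`. -/
abbrev Mat (G : Type*) (q : ℕ) := Matrix (Fin q) (Fin q) (G → ℂ)

/-- The entries of `a` are in `ℓ¹(G)`. -/
def InL1 {q : ℕ} (a : Mat G q) : Prop := ∀ i j, Summable fun g => ‖a i j g‖

/-- The product of matrices over `ℓ¹(G)`. -/
noncomputable def mul {q : ℕ} (a b : Mat G q) : Mat G q := fun i j g =>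
  ∑ k, ∑' h, a i k h * b k j (h⁻¹ * g)

open Classical in
/-- The unit matrix over `ℓ¹(G)`. -/
noncomputable def unit (G : Type*) [Group G] (q : ℕ) : Mat G q := fun i j g =>
  if i = j ∧ g = 1 then 1 else 0

/-- `e` is an idempotent matrix over `ℓ¹(G)`. -/
def IsIdem {q : ℕ} (e : Mat G q) : Prop := InL1 e ∧ mul e e = e

/-- `u` is an invertible matrix over `ℓ¹(G)` with inverse `v`. -/
def IsInv {q : ℕ} (u v : Mat G q) : Prop :=
  InL1 u ∧ InL1 v ∧ mul u v = unit G q ∧ mul v u = unit G q

/-- The coefficient of the Hattori-Stallings trace of `e` at the conjugacy class `C`. -/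
noncomputable def tau {q : ℕ} (C : ConjClasses G) (e : Mat G q) : ℂ :=
  ∑' g : C.carrier, ∑ i, e i i g

variable (G) in
/-- The `ℓ¹`-Bass conjecture for the group `G`. -/
def L1Bass : Prop :=
  ∀ (q : ℕ) (e : Mat G q), IsIdem e → ∃ F : Finset (ConjClasses G),
    (∀ C ∈ F, ∀ g ∈ C.carrier, IsOfFinOrder g) ∧ ∀ C ∉ F, tau C e = 0

/-- The part `S` of the multiplication table of `G` lifts to the group `H`, which maps to `G`. -/
def Lifts (H : Type*) [Group H] (S : Finset G) : Prop :=
  ∃ (f : H →* G) (s : G → H), ∀ x ∈ S, f (s x) = x ∧ ∀ y ∈ S, x * y ∈ S → s x * s y = s (x * y)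

/-- The finite parts of the multiplication table of `G` lift to groups which satisfy the
`ℓ¹`-Bass conjecture. -/
def LimBass (G : Type u) [Group G] : Prop :=
  ∀ S : Finset G, ∃ (H : Type v) (_ : Group H), Lifts H S ∧ L1Bass H

/-- The traces of all idempotent matrices over `ℓ¹(G)` vanish at the class of `x`. -/
def VanishesAt (x : G) : Prop :=
  ∀ (q : ℕ) (e : Mat G q), IsIdem e → tau (ConjClasses.mk x) e = 0

/-- `L` is a length function on `G`. -/
def IsLen (L : G → ℝ) : Prop :=
  L 1 = 0 ∧ (∀ g, L g⁻¹ = L g) ∧ ∀ g h, L (g * h) ≤ L g + L h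

/-- `a` decays exponentially with respect to `L`. -/
def ExpDecay (L : G → ℝ) {q : ℕ} (a : Mat G q) : Prop :=
  ∃ ε : ℝ, 0 < ε ∧ ∀ i j, Summable fun g => ‖a i j g‖ * Real.exp (ε * L g)

/-- The chain `c` decays exponentially with respect to `L`. -/
def ExpChain (L : G → ℝ) {n : ℕ} (c : (Fin n → G) → ℂ) : Prop :=
  ∃ ε : ℝ, 0 < ε ∧ Summable fun g => ‖c g‖ * Real.exp (ε * ∑ i, L (g i))

/-- The image of the chain `c` under the map `f`. -/
noncomputable def push {α β : Type*} (f : α → β) (c : α → ℂ) (b : β) : ℂ := ∑' a : {a // f a = b}, c a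

/-- The Hochschild boundary of the chain `c` of degree `n + 1`. -/
noncomputable def bdy {n : ℕ} (c : (Fin (n + 2) → G) → ℂ) (g : Fin (n + 1) → G) : ℂ :=
  ∑ j : Fin (n + 1), (-1) ^ (j : ℕ) * push (fun p => j.castSucc.contractNth (· * ·) p) c g +
    (-1) ^ (n + 1) * push (fun p : Fin (n + 2) → G =>
      (Fin.cons (p (Fin.last (n + 1)) * p 0) fun i => p i.castSucc.succ : Fin (n + 1) → G)) c g

/-- The cyclic operator on the chains of degree `n`. -/
def cyc {n : ℕ} (c : (Fin (n + 1) → G) → ℂ) (g : Fin (n + 1) → G) : ℂ :=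
  (-1) ^ n * c fun i => g (finRotate (n + 1) i)

/-- The chain `c` of degree `n` is a boundary in the cyclic complex (chains modulo the image of
`1 - cyc`, with the boundary map `bdy`) of chains which decay exponentially with respect to `L`
and are supported at the tuples whose product is conjugate to `x`. -/
def IsCycBdy (L : G → ℝ) (x : G) {n : ℕ} (c : (Fin (n + 1) → G) → ℂ) : Prop :=
  ∃ (b : (Fin (n + 2) → G) → ℂ) (a : (Fin (n + 1) → G) → ℂ), ExpChain L b ∧ ExpChain L a ∧
    (∀ g, ¬ IsConj x (List.ofFn g).prod → b g = 0) ∧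
    (∀ g, ¬ IsConj x (List.ofFn g).prod → a g = 0) ∧ ∀ g, c g = bdy b g + (a g - cyc a g)

open Classical in
/-- The component at the conjugacy class of `x` of the chain of degree `n` which is the image of
`a 0 ⊗ ... ⊗ a n` under the trace of matrices. -/
noncomputable def chern (x : G) {q : ℕ} (n : ℕ) (a : ℕ → Mat G q) (g : Fin (n + 1) → G) : ℂ :=
  if IsConj x (List.ofFn g).prod then
    (List.ofFn fun k : Fin (n + 1) => Matrix.of fun i j => a k i j (g k)).prod.trace else 0

/-- The components at `x` of the Chern characters of the idempotents which decay exponentially,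
in all even degrees, are boundaries. -/
def EvenBdy (L : G → ℝ) (x : G) : Prop :=
  ∀ (m q : ℕ) (e : Mat G q), IsIdem e → ExpDecay L e →
    IsCycBdy L x (chern x (2 * m) fun _ => e)

/-- The components at `x` of the Chern characters `tr ((u⁻¹ - 1) ⊗ (u - 1) ⊗ ... ⊗ (u - 1))` of the
invertible matrices `u` such that `u` and its inverse decay exponentially, in all odd degrees, are
boundaries. -/
def OddBdy (L : G → ℝ) (x : G) : Prop :=
  ∀ (m q : ℕ) (u v : Mat G q), IsInv u v → ExpDecay L u → ExpDecay L v →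
    IsCycBdy L x (chern x (2 * m + 1) fun k => if Even k then v - unit G q else u - unit G q)

variable (G) in
/-- The stronger form of the `ℓ¹`-Bass conjecture for `G`, in cyclic homology and in all degrees.
For a length function `L` dominating all others, like the word length of a finitely generated
group:
* the classes in `K_0(ℓ¹(G))` are represented by idempotents with exponential decay,
* the classes in `K_1(ℓ¹(G))` are represented by invertible matrices `v` such that `v` and its
  inverse `v'` decay exponentially (`v = u w` with `w` at distance less than `1` from the unit),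
* the Chern characters of these representatives, in the cyclic homology of the algebra of the
  functions with exponential decay, have component zero at the classes of the elements of
  infinite order. -/
def HomBass : Prop :=
  ∃ L : G → ℝ, IsLen L ∧ (∀ L', IsLen L' → ∃ c : ℝ, ∀ g, L' g ≤ c * L g) ∧
    (∀ (q : ℕ) (e : Mat G q), IsIdem e → ∃ f u v : Mat G q,
      IsIdem f ∧ ExpDecay L f ∧ InL1 u ∧ InL1 v ∧ mul u v = e ∧ mul v u = f) ∧
    (∀ (q : ℕ) (u u' : Mat G q), IsInv u u' → ∃ v v' w : Mat G q,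
      IsInv v v' ∧ ExpDecay L v ∧ ExpDecay L v' ∧ InL1 w ∧ v = mul u w ∧
      ∑ i, ∑ j, ∑' g, ‖(w - unit G q) i j g‖ < 1) ∧
    ∀ x : G, ¬ IsOfFinOrder x → EvenBdy L x ∧ OddBdy L x

/-- The `n`-th power of the periodicity operator annihilates the trace at the class of `x`, for
cochains satisfying the growth condition `gr`: some cyclic cochain `ψ` on the `2 * n`-tuples,
invariant under the centralizer of `x` and changing its sign under the cyclic shift which closes
up the tuples with `x`, has homogeneous coboundary `1`. -/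
def CycNil (x : G) (gr : ∀ n : ℕ, ((Fin n → G) → ℝ) → Prop) : Prop :=
  ∃ (n : ℕ) (ψ : (Fin (2 * n) → G) → ℝ), 0 < n ∧ gr (2 * n) ψ ∧
    (∀ h, Commute h x → ∀ p, ψ (fun i => h * p i) = ψ p) ∧
    (∀ p : ℕ → G, p (2 * n) = x * p 0 → ψ (fun i => p (i + 1)) = -ψ fun i => p i) ∧
    ∀ p : Fin (2 * n + 1) → G,
      ∑ j : Fin (2 * n + 1), (-1) ^ (j : ℕ) * ψ (fun i => p (j.succAbove i)) = 1

/-- `x` is tame in `G`: for some length function `L`, a power of the periodicity operator
annihilates the trace at `x`, with subexponential growth in the quantities `L (p i⁻¹ * p j)` and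
`L (p i⁻¹ * x * p i)`. -/
def TameAt (x : G) : Prop :=
  ∃ L : G → ℝ, IsLen L ∧ CycNil x fun n F => ∀ ε : ℝ, 0 < ε → ∃ C : ℝ,
    ∀ p : Fin n → G, |F p| ≤
      C * Real.exp (ε * ((∑ i, ∑ j, L ((p i)⁻¹ * p j)) + ∑ i, L ((p i)⁻¹ * x * p i)))

/-- `x` is tame in all finitely generated subgroups containing it. -/
def LocTame (x : G) : Prop :=
  ∀ (S : Finset G) (h : x ∈ Subgroup.closure (S : Set G)),
    TameAt (⟨x, h⟩ : Subgroup.closure (S : Set G))

/-- For some length function `L` of `G`, the class of `x` has a polynomial conjugacy bound and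
a power of the periodicity operator annihilates the trace at `x`, with polynomial growth on the
centralizer. -/
def PolyNilpotent (x : G) : Prop :=
  ∃ L : G → ℝ, IsLen L ∧ (∃ (C : ℝ) (d : ℕ), ∀ p, ∃ h, Commute h x ∧
      L (h⁻¹ * p) ≤ C * (1 + L (p⁻¹ * x * p)) ^ d) ∧
    CycNil x fun n F => ∃ (C : ℝ) (d : ℕ), ∀ p : Fin n → G, (∀ i, Commute (p i) x) →
      |F p| ≤ C * (1 + ∑ i, ∑ j, L ((p i)⁻¹ * p j)) ^ d

/-- Some power of `x` lies in a subgroup `K` of finite index and has nontrivial image under a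
homomorphism from `K` to upper unitriangular real matrices. -/
def VirtUnipotent (x : G) : Prop :=
  ∃ (K : Subgroup G) (m n : ℕ) (ρ : K →* Matrix (Fin n) (Fin n) ℝ) (h : x ^ m ∈ K),
    K.FiniteIndex ∧ (∀ g i j, j ≤ i → ρ g i j = (1 : Matrix (Fin n) (Fin n) ℝ) i j) ∧
      ρ ⟨x ^ m, h⟩ ≠ 1

/-- A real character of the centralizer of `x`, not vanishing at `x`, is dominated by a
subadditive function on `G`. -/
def Charged (x : G) : Prop :=
  ∃ L φ : G → ℝ, (∀ g h, L (g * h) ≤ L g + L h) ∧
    (∀ g h, Commute g x → Commute h x → φ (g * h) = φ g + φ h) ∧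
    (∀ g, Commute g x → φ g ≤ L g) ∧ φ x ≠ 0

/-- `x` is charged in all finitely generated subgroups containing it. -/
def LocCharged (x : G) : Prop :=
  ∀ (S : Finset G) (h : x ∈ Subgroup.closure (S : Set G)),
    Charged (⟨x, h⟩ : Subgroup.closure (S : Set G))

/-- Some finite dimensional representation over `K` maps `x` to a matrix none of whose positive
powers is unipotent. -/
def LinDetected (x : G) (K : Type*) [Field K] : Prop :=
  ∃ (n : ℕ) (ρ : G →* Matrix (Fin n) (Fin n) K), ∀ m : ℕ, 0 < m → ¬ IsNilpotent (ρ x ^ m - 1)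

/-- `y` is the image of a positive power of `x` under a homomorphism from a subgroup of finite
index. -/
def Image {K : Type*} [Group K] (x : G) (y : K) : Prop :=
  ∃ (D : Subgroup G) (m : ℕ) (h : x ^ (m + 1) ∈ D) (f : D →* K),
    D.FiniteIndex ∧ f ⟨x ^ (m + 1), h⟩ = y

/-- `f` is bounded on `C` and invariant under left translation by `D`. -/
def BddInv (C D : Subgroup G) (f : G → ℝ) : Prop :=
  (∃ K, ∀ c ∈ C, |f c| ≤ K) ∧ ∀ d ∈ D, ∀ c ∈ C, f (d * c) = f c

/-- There is a `C`-invariant mean on the bounded functions on `D \ C`, for subgroups `D ≤ C`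
of `G`; for `D = 1` this is the amenability of `C`. -/
def CoAmenable (C D : Subgroup G) : Prop :=
  ∃ m : (G → ℝ) → ℝ,
    (∀ f g, BddInv C D f → BddInv C D g → m (fun c => f c + g c) = m f + m g) ∧
    (∀ f, BddInv C D f → (∀ c ∈ C, 0 ≤ f c) → 0 ≤ m f) ∧ (∀ r : ℝ, m (fun _ => r) = r) ∧
    ∀ f, BddInv C D f → ∀ k ∈ C, m (fun c => f (c * k)) = m f

/-- The centralizer of `x`. -/
def Cen (x : G) : Subgroup G := Subgroup.centralizer {x}

variable (G) in
/-- Property A of Yu for the discrete group `G` (equivalently, exactness). -/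
def PropertyA : Prop :=
  ∀ (S : Finset G) (ε : ℝ), 0 < ε → ∃ (E : Finset G) (a : G → G → ℝ),
    (∀ p q, 0 ≤ a p q) ∧ (∀ p q, a p q ≠ 0 → p⁻¹ * q ∈ E) ∧ (∀ p, ∑ t ∈ E, a p (p * t) = 1) ∧
    ∀ s ∈ S, ∀ p, ∑' q, |a (p * s) q - a p q| ≤ ε

/-- `G` has property A and the centralizer of `x` is amenable. -/
def AmenCentr (x : G) : Prop :=
  PropertyA G ∧ CoAmenable (Cen x) ⊥

/-- There are a normal subgroup `D` of the centralizer of `x` containing `x` and with amenable
quotient, and a map `u` from `G` to the unit sphere of a finite dimensional space, equivariant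
for `D` acting by diagonal unitary matrices, that of `x` without eigenvalue `1`, which varies by
at most `√δ` under right translation by the elements of `S`. -/
def SlowAt (x : G) (S : Finset G) (δ : ℝ) : Prop :=
  ∃ (D : Subgroup G) (n : ℕ) (ζ u : G → Fin n → ℂ),
    x ∈ D ∧ D ≤ Cen x ∧ (∀ c ∈ Cen x, ∀ d ∈ D, c * d * c⁻¹ ∈ D) ∧ CoAmenable (Cen x) D ∧
    (∀ d j, ‖ζ d j‖ = 1) ∧ (∀ j, ζ x j ≠ 1) ∧ (∀ d ∈ D, ∀ p j, u (d * p) j = ζ d j * u p j) ∧
    (∀ p, ∑ j, ‖u p j‖ ^ 2 = 1) ∧ ∀ s ∈ S, ∀ p, ∑ j, ‖u (p * s) j - u p j‖ ^ 2 ≤ δ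

/-- `x` is locally tame, or there are arbitrarily slow maps as in `SlowAt`. -/
def Mild (x : G) : Prop :=
  LocTame x ∨ ∀ (S : Finset G) (δ : ℝ), 0 < δ → SlowAt x S δ

variable (G) in
/-- The elements of infinite order are locally tame. -/
def TameInf : Prop := ∀ x : G, ¬ IsOfFinOrder x → LocTame x

variable (G) in
/-- The elements of infinite order are mild. -/
def MildInf : Prop := ∀ x : G, ¬ IsOfFinOrder x → Mild x

variable (G) in
/-- The elements of infinite order are mild, and for all `S` and `δ` the elements of finite order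
of the subgroup generated by `S` satisfy `SlowAt`, up to finitely many conjugacy classes. -/
def Nice : Prop :=
  MildInf G ∧ ∀ (S : Finset G) (δ : ℝ), 0 < δ → ∃ B : Finset G,
    ∀ x ∈ Subgroup.closure (S : Set G), IsOfFinOrder x → SlowAt x S δ ∨ ∃ b ∈ B, IsConj b x

variable (G) in
/-- `G` is amenable, or its elements of infinite order are mild or satisfy `AmenCentr`, and the
elements of finite order of any finitely generated subgroup satisfy `AmenCentr`, up to finitely
many conjugacy classes. -/
def AlmostAmen : Prop :=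
  CoAmenable (⊤ : Subgroup G) ⊥ ∨ (∀ x : G, ¬ IsOfFinOrder x → Mild x ∨ AmenCentr x) ∧
    ∀ S : Finset G, ∃ B : Finset G, ∀ x ∈ Subgroup.closure (S : Set G), IsOfFinOrder x →
      AmenCentr x ∨ ∃ b ∈ B, IsConj b x

/-- `p` and `q` are joined by a walk of length `n` in the graph with edge relation `R`. -/
def Joined {G : Type*} (R : G → G → Prop) (n : ℕ) (p q : G) : Prop :=
  ∃ w : ℕ → G, w 0 = p ∧ w n = q ∧ ∀ i < n, R (w i) (w (i + 1))

/-- Edges of the Cayley graph of `G` with respect to the letters of `X` and of all the `H k`.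
For `o = some l`, the edges labelled by letters of `H l` between elements of `H l` are left
out. -/
def Adj {ι : Type*} (X : Set G) (H : ι → Subgroup G) (o : Option ι) (p q : G) : Prop :=
  p⁻¹ * q ∈ X ∨ q⁻¹ * p ∈ X ∨ ∃ k, p⁻¹ * q ∈ H k ∧ ¬ (o = some k ∧ p ∈ H k)

/-- `G` is hyperbolic relative to the finite family `H`: for some finite set `X`, the Cayley
graph with respect to `X` and all the `H k` is connected and hyperbolic (`d` is its metric), and
only finitely many elements of `H k` are joined to `1` by walks of given length using no edge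
of the complete graph on `H k`. -/
def IsRelHyp {ι : Type*} (H : ι → Subgroup G) : Prop :=
  Finite ι ∧ ∃ (X : Set G) (d : G → G → ℕ) (δ : ℕ), X.Finite ∧
    (∀ p q, IsLeast {n | Joined (Adj X H none) n p q} (d p q)) ∧
    (∀ a b c e, d a b + d c e ≤ max (d a c + d b e) (d a e + d b c) + δ) ∧
    ∀ k n, {h | h ∈ H k ∧ Joined (Adj X H (some k)) n 1 h}.Finite

/-- The action of `G` on `X` is proper, cocompact and isometric, and `X` satisfies the
Bruhat-Tits (CN) inequality, as `CAT(0)` spaces do. -/
def Cat0Action (G X : Type*) [Group G] [MetricSpace X] [MulAction G X] : Prop :=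
  Nonempty X ∧ (∀ (g : G) (a b : X), dist (g • a) (g • b) = dist a b) ∧
    (∀ p q : X, ∃ m, ∀ z, dist z m ^ 2 ≤ (dist z p ^ 2 + dist z q ^ 2) / 2 - dist p q ^ 2 / 4) ∧
    (∀ a : X, ∃ r > 0, {g : G | dist a (g • a) < r}.Finite) ∧
    ∃ B : Set X, IsCompact B ∧ ∀ a : X, ∃ g : G, g • a ∈ B

end Vale.Agent.P184.Un
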