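import Vale.Agent.P184.R3.UDefs
import Vale.Agent.P184.R2.HMain

/-!
# The clauses of the combined statement
-/

namespace Vale.Agent.P184.Un

universe u v w

section conv

variable {G : Type*} [Group G]

theorem idem_iff {q : ℕ} {e : Mat G q} : IsIdem e ↔ W.IsIdem e :=
  and_congr Iff.rfl ⟨fun h i j g => congrFun (congrFun (congrFun h i) j) g,
    fun h => funext fun i => funext fun j => funext fun g => h i j g⟩

theorem l1Bass_iff : L1Bass G ↔ W.L1Bass G :=
  forall_congr' fun _ => forall_congr' fun _ => imp_congr idem_iff Iff.rfl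

theorem vanishesAt_iff {x : G} : VanishesAt x ↔ W.VanishesAt x :=
  forall_congr' fun _ => forall_congr' fun _ => imp_congr idem_iff Iff.rfl

theorem tameAt_iff {x : G} : TameAt x ↔ W.TameAt x := Iff.rfl

theorem tameAt_iff' {x : G} : TameAt x ↔ S.TameAt x := Iff.rfl

theorem locTame_iff {x : G} : LocTame x ↔ S.LocTame x := Iff.rfl

theorem slowAt_iff {x : G} {T : Finset G} {δ : ℝ} : SlowAt x T δ ↔ W.SlowAt x T δ := Iff.rfl

theorem mild_iff {x : G} : Mild x ↔ W.Mild x := Iff.rfl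

theorem mildInf_iff : MildInf G ↔ W.MildInf G := Iff.rfl

theorem nice_iff : Nice G ↔ W.Nice G := Iff.rfl

theorem almostAmen_iff : AlmostAmen G ↔ W.AlmostAmen G := Iff.rfl

theorem poly_iff {x : G} : PolyNilpotent x ↔ W.PolyNilpotent x := Iff.rfl

theorem poly_iff' {x : G} : PolyNilpotent x ↔ S.PolyNilpotent x := Iff.rfl

theorem isRelHyp_iff {ι : Type*} {H : ι → Subgroup G} : IsRelHyp H ↔ W.IsRelHyp H := Iff.rfl

theorem isRelHyp_iff' {ι : Type*} {H : ι → Subgroup G} : IsRelHyp H ↔ S.IsRelHyp H := Iff.rfl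

theorem evenBdy_iff {L : G → ℝ} {x : G} : EvenBdy L x ↔ A.EvenBdy L x := Iff.rfl

theorem oddBdy_iff {L : G → ℝ} {x : G} : OddBdy L x ↔ A.OddBdy L x := Iff.rfl

theorem homBass_iff : HomBass G ↔ A.HomBass G := Iff.rfl

end conv

theorem limBass {G : Type u} [Group G] (h : LimBass.{u, v} G) : L1Bass G :=
  l1Bass_iff.2 (W.l1Bass_of_lifts fun T => by
    obtain ⟨H, _, h1, h2⟩ := h T
    exact ⟨H, _, h1, l1Bass_iff.1 h2⟩)

theorem l1Bass_of_nice {G : Type u} [Group G] (h : Nice G) : L1Bass G :=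
  l1Bass_iff.2 (W.l1Bass_of_nice (nice_iff.1 h))

theorem vanishesAt_of_mild {G : Type u} [Group G] {x : G} (h : Mild x) : VanishesAt x :=
  vanishesAt_iff.2 (W.vanishesAt_of_mild (mild_iff.1 h))

theorem relHyp {G : Type u} [Group G] {ι : Type v} {H : ι → Subgroup G} (hG : IsRelHyp H) :
    ((∀ k, MildInf (H k)) → MildInf G) ∧ ((∀ k, Nice (H k)) → Nice G) ∧
      ((∀ k, TameInf (H k)) → TameInf G) :=
  ⟨W.relHyp_mild (isRelHyp_iff.1 hG), W.relHyp_nice (isRelHyp_iff.1 hG),
    fun h => S.relHyp_loc (isRelHyp_iff'.1 hG) h⟩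

theorem homBass {G : Type u} [Group G] (hG : Group.FG G) (h : TameInf G) : HomBass G :=
  homBass_iff.2 (A.homBass_of_loc hG h)

theorem tameBdy {G : Type u} [Group G] {x : G} (h : TameAt x) :
    ∃ L₀ : G → ℝ, IsLen L₀ ∧ ∀ L, IsLen L → (∃ c : ℝ, ∀ g, L₀ g ≤ c * L g) →
      EvenBdy L x ∧ OddBdy L x :=
  A.bdy_of_tame (tameAt_iff'.1 h)

theorem loc_of {G : Type u} [Group G] {x : G}
    (h : PolyNilpotent x ∨ VirtUnipotent x ∨ LocCharged x) : LocTame x :=
  locTame_iff.2 (S.loc_of h)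

theorem mild_of {G : Type u} [Group G] {x : G} {K : Type v} [Field K]
    (h : LocTame x ∨ LinDetected x K) : Mild x :=
  h.elim Or.inl fun h => mild_iff.2 (W.mild_of_linDetected h)

theorem image {G : Type u} [Group G] {K : Type v} [Group K] {x : G} {y : K} (h : Image x y) :
    (LocTame y → LocTame x) ∧ (Mild y → Mild x) :=
  ⟨fun h' => S.loc_of_image h h', fun h' => W.mild_image h h'⟩

theorem nice_of_almostAmen {G : Type u} [Group G] (h : AlmostAmen G) : Nice G :=
  nice_iff.2 (W.nice_of_almostAmen (almostAmen_iff.1 h))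

theorem nice_of_cat {G : Type u} [Group G] {X : Type v} [MetricSpace X] [MulAction G X]
    (h : Cat0Action G X) : Nice G :=
  nice_iff.2 (W.nice_of_cat h)

theorem nice_prod {G : Type u} [Group G] {K : Type v} [Group K] (hG : Nice G) (hK : Nice K) :
    Nice (G × K) :=
  nice_iff.2 (W.nice_prod (nice_iff.1 hG) (nice_iff.1 hK))

theorem tameInf_mild {G : Type u} [Group G] (h : TameInf G) : MildInf G := fun x hx =>
  Or.inl (h x hx)

end Vale.Agent.P184.Un
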